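import Vale.Agent.Lib.P331.Events

/-!
P331: the second expectation lemma, `E[T] ≤ 3 E[E0] + 2 E[EA]` (independent copy).

`T` is the largest non-loop sample.  The proof swaps the sample and the value of one element
twice; the weight of a pair of atom vectors is invariant under such a swap.
-/

namespace Vale.Agent.Lib.P331

open Finset

noncomputable section

open Classical

variable {E : Type} [Fintype E] [DecidableEq E]

/-! ### The largest non-loop sample -/

omit [DecidableEq E] in
theorem helper10_topS_nonneg (M : Matroid E) (S : E → ℝ) : 0 ≤ topS M S := by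
  unfold topS
  exact NNReal.coe_nonneg _

omit [DecidableEq E] in
theorem helper10_le_topS (M : Matroid E) (S : E → ℝ) {e : E} (he : e ∈ NL M) :
    S e ≤ topS M S := by
  unfold topS
  have h1 : (S e).toNNReal ≤ (univ.filter fun e => M.Indep {e}).sup fun e => (S e).toNNReal :=
    Finset.le_sup (f := fun e => (S e).toNNReal) he
  calc S e ≤ ((S e).toNNReal : ℝ) := Real.le_coe_toNNReal _
    _ ≤ _ := NNReal.coe_le_coe.mpr h1

omit [DecidableEq E] in
theorem helper10_topS_le (M : Matroid E) (S : E → ℝ) {c : ℝ} (hc : 0 ≤ c)
    (h : ∀ e ∈ NL M, S e ≤ c) : topS M S ≤ c := by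
  unfold topS
  have h1 : ((univ.filter fun e => M.Indep {e}).sup fun e => (S e).toNNReal) ≤ c.toNNReal := by
    apply Finset.sup_le
    intro e he
    exact Real.toNNReal_le_toNNReal (h e he)
  calc _ ≤ ((c.toNNReal : NNReal) : ℝ) := NNReal.coe_le_coe.mpr h1
    _ = c := Real.coe_toNNReal c hc

omit [DecidableEq E] in
theorem helper10_exists_eq_topS (M : Matroid E) (S : E → ℝ) (hS : ∀ e, 0 ≤ S e)
    (hne : (NL M).Nonempty) : ∃ e ∈ NL M, S e = topS M S := by
  obtain ⟨e, he, heq⟩ := Finset.exists_mem_eq_sup (NL M) hne (fun e => (S e).toNNReal)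
  refine ⟨e, he, ?_⟩
  unfold topS
  have h1 : ((univ.filter fun e => M.Indep {e}).sup fun e => (S e).toNNReal) = (S e).toNNReal :=
    heq
  rw [h1, Real.coe_toNNReal _ (hS e)]

omit [DecidableEq E] in
theorem helper10_topS_eq_zero (M : Matroid E) (S : E → ℝ) (h : NL M = ∅) : topS M S = 0 := by
  unfold topS
  have h1 : (univ.filter fun e => M.Indep {e}) = (∅ : Finset E) := h
  rw [h1, Finset.sup_empty]
  simp

/-! ### Weights and swaps -/

omit [Fintype E] in
theorem helper10_vals_update {Ω : Type} (val : E → Ω → ℝ) (s : E → Ω) (e : E) (ω : Ω) :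
    vals val (Function.update s e ω) = Function.update (vals val s) e (val e ω) := by
  funext f
  unfold vals
  by_cases hf : f = e
  · subst hf
    simp
  · simp [hf]

omit [DecidableEq E] in
theorem helper10_wt_nonneg {Ω : Type} (p : E → Ω → ℝ) (hp : ∀ e ω, 0 ≤ p e ω) (s : E → Ω) :
    0 ≤ wt p s := by
  unfold wt
  exact Finset.prod_nonneg (fun e _ => hp e (s e))

theorem helper10_wt_swap {Ω : Type} (p : E → Ω → ℝ) (s v : E → Ω) (e : E) :
    wt p (Function.update s e (v e)) * wt p (Function.update v e (s e)) = wt p s * wt p v := by
  unfold wt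
  rw [← Finset.prod_mul_distrib, ← Finset.prod_mul_distrib]
  apply Finset.prod_congr rfl
  intro f _
  by_cases hf : f = e
  · subst hf
    simp [mul_comm]
  · simp [hf]

/-- The expectation of a function of a pair of atom vectors. -/
def helper10_Ex {Ω : Type} [Fintype Ω] (p : E → Ω → ℝ) (g : (E → Ω) → (E → Ω) → ℝ) : ℝ :=
  ∑ s : E → Ω, ∑ v : E → Ω, wt p s * wt p v * g s v

theorem helper10_Ex_mono {Ω : Type} [Fintype Ω] (p : E → Ω → ℝ) (hp : ∀ e ω, 0 ≤ p e ω)
    {g g' : (E → Ω) → (E → Ω) → ℝ} (h : ∀ s v, g s v ≤ g' s v) :
    helper10_Ex p g ≤ helper10_Ex p g' := by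
  unfold helper10_Ex
  apply Finset.sum_le_sum
  intro s _
  apply Finset.sum_le_sum
  intro v _
  exact mul_le_mul_of_nonneg_left (h s v)
    (mul_nonneg (helper10_wt_nonneg p hp s) (helper10_wt_nonneg p hp v))

theorem helper10_Ex_congr {Ω : Type} [Fintype Ω] (p : E → Ω → ℝ)
    {g g' : (E → Ω) → (E → Ω) → ℝ} (h : ∀ s v, g s v = g' s v) :
    helper10_Ex p g = helper10_Ex p g' := by
  have h1 : g = g' := by
    funext s v
    exact h s v
  rw [h1]

theorem helper10_Ex_add {Ω : Type} [Fintype Ω] (p : E → Ω → ℝ)
    (g g' : (E → Ω) → (E → Ω) → ℝ) :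
    helper10_Ex p (fun s v => g s v + g' s v) = helper10_Ex p g + helper10_Ex p g' := by
  unfold helper10_Ex
  simp only [mul_add, Finset.sum_add_distrib]

theorem helper10_Ex_sum {Ω : Type} [Fintype Ω] {ι : Type} (p : E → Ω → ℝ) (t : Finset ι)
    (g : ι → (E → Ω) → (E → Ω) → ℝ) :
    helper10_Ex p (fun s v => ∑ i ∈ t, g i s v) = ∑ i ∈ t, helper10_Ex p (g i) := by
  unfold helper10_Ex
  simp only [Finset.mul_sum]
  calc ∑ s : E → Ω, ∑ v : E → Ω, ∑ i ∈ t, wt p s * wt p v * g i s v
      = ∑ s : E → Ω, ∑ i ∈ t, ∑ v : E → Ω, wt p s * wt p v * g i s v :=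
        Finset.sum_congr rfl (fun s _ => Finset.sum_comm)
    _ = ∑ i ∈ t, ∑ s : E → Ω, ∑ v : E → Ω, wt p s * wt p v * g i s v := Finset.sum_comm

theorem helper10_Ex_swap {Ω : Type} [Fintype Ω] (p : E → Ω → ℝ)
    (g : (E → Ω) → (E → Ω) → ℝ) (e : E) :
    helper10_Ex p g
      = helper10_Ex p (fun s v => g (Function.update s e (v e)) (Function.update v e (s e))) := by
  unfold helper10_Ex
  have h1 : ∀ F : (E → Ω) → (E → Ω) → ℝ, ∑ s : E → Ω, ∑ v : E → Ω, F s v
      = ∑ x : (E → Ω) × (E → Ω), F x.1 x.2 := fun F => (Fintype.sum_prod_type' F).symm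
  rw [h1 (fun s v => wt p s * wt p v * g s v),
    h1 (fun s v => wt p s * wt p v *
      g (Function.update s e (v e)) (Function.update v e (s e)))]
  have hinv : Function.Involutive (fun x : (E → Ω) × (E → Ω) =>
      ((Function.update x.1 e (x.2 e), Function.update x.2 e (x.1 e)) : (E → Ω) × (E → Ω))) := by
    intro x
    apply Prod.ext
    · funext f
      by_cases hf : f = e <;> simp [hf]
    · funext f
      by_cases hf : f = e <;> simp [hf]
  have h2 := Equiv.sum_comp hinv.toPerm
    (fun x : (E → Ω) × (E → Ω) => wt p x.1 * wt p x.2 * g x.1 x.2)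
  rw [← h2]
  apply Finset.sum_congr rfl
  intro x _
  show wt p (Function.update x.1 e (x.2 e)) * wt p (Function.update x.2 e (x.1 e)) *
      g (Function.update x.1 e (x.2 e)) (Function.update x.2 e (x.1 e))
    = wt p x.1 * wt p x.2 * g (Function.update x.1 e (x.2 e)) (Function.update x.2 e (x.1 e))
  rw [helper10_wt_swap]

/-! ### Pointwise statements -/

/-- The sample of `e` when it is a largest non-loop sample exceeding every non-loop value. -/
def helper10_h (M : Matroid E) (S V : E → ℝ) (e : E) : ℝ :=
  if (∀ f ∈ NL M, f ≠ e → S f ≤ S e) ∧ (∀ f ∈ NL M, V f < S e) then S e else 0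

/-- The value of `e` beats its own sample, all other non-loop samples (weakly) and all other
non-loop values (strictly). -/
def helper10_Q (M : Matroid E) (S V : E → ℝ) (e : E) : Prop :=
  (∀ f ∈ NL M, f ≠ e → S f ≤ V e) ∧ S e < V e ∧ (∀ f ∈ NL M, f ≠ e → V f < V e)

/-- All non-loop values other than that of `e` are at most `T`. -/
def helper10_Good (M : Matroid E) (S V : E → ℝ) (e : E) : Prop :=
  ∀ g ∈ NL M, g ≠ e → V g ≤ topS M S

/-- `Q` holds for `e`, and `g` has a largest value among the other non-loops, above `T`. -/
def helper10_Bad (M : Matroid E) (S V : E → ℝ) (e g : E) : Prop :=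
  helper10_Q M S V e ∧ topS M S < V g ∧ ∀ x ∈ NL M, x ≠ e → V x ≤ V g

/-- The sample of `g` is strictly the largest non-loop sample. -/
def helper10_Ustr (M : Matroid E) (S : E → ℝ) (g : E) : Prop :=
  ∀ f ∈ NL M, f ≠ g → S f < S g

theorem helper10_step1 (M : Matroid E) (S V : E → ℝ) (hS : ∀ e, 0 ≤ S e) :
    topS M S ≤ E0 M S V + ∑ e ∈ NL M, helper10_h M S V e := by
  have hh : ∀ e ∈ NL M, 0 ≤ helper10_h M S V e := by
    intro e _
    unfold helper10_h
    split_ifs
    · exact hS e
    · exact le_refl 0
  by_cases hex : ∃ e ∈ NL M, topS M S ≤ V e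
  · have h0 : E0 M S V = topS M S := by
      unfold E0
      rw [if_pos hex]
    rw [h0]
    linarith [Finset.sum_nonneg hh]
  · have h0 : E0 M S V = 0 := by
      unfold E0
      rw [if_neg hex]
    rw [h0, zero_add]
    push Not at hex
    by_cases hne : (NL M).Nonempty
    · obtain ⟨e, he, heq⟩ := helper10_exists_eq_topS M S hS hne
      have h1 : helper10_h M S V e = S e := by
        unfold helper10_h
        rw [if_pos]
        constructor
        · intro f hf _
          rw [heq]
          exact helper10_le_topS M S hf
        · intro f hf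
          rw [heq]
          exact hex f hf
      calc topS M S = helper10_h M S V e := by rw [h1, heq]
        _ ≤ ∑ e ∈ NL M, helper10_h M S V e := Finset.single_le_sum hh he
    · rw [Finset.not_nonempty_iff_eq_empty] at hne
      rw [helper10_topS_eq_zero M S hne, hne, Finset.sum_empty]

theorem helper10_step2 (M : Matroid E) (S V : E → ℝ) {e : E} (he : e ∈ NL M) :
    helper10_h M (Function.update S e (V e)) (Function.update V e (S e)) e
      = if helper10_Q M S V e then V e else 0 := by
  unfold helper10_h
  rw [Function.update_self]
  apply if_congr _ rfl rfl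
  unfold helper10_Q
  constructor
  · rintro ⟨h1, h2⟩
    refine ⟨?_, ?_, ?_⟩
    · intro f hf hfe
      have h3 := h1 f hf hfe
      rwa [Function.update_of_ne hfe] at h3
    · have h3 := h2 e he
      rwa [Function.update_self] at h3
    · intro f hf hfe
      have h3 := h2 f hf
      rwa [Function.update_of_ne hfe] at h3
  · rintro ⟨h1, h2, h3⟩
    constructor
    · intro f hf hfe
      rw [Function.update_of_ne hfe]
      exact h1 f hf hfe
    · intro f hf
      by_cases hfe : f = e
      · subst hfe
        rw [Function.update_self]
        exact h2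
      · rw [Function.update_of_ne hfe]
        exact h3 f hf hfe

theorem helper10_step3 (M : Matroid E) (S V : E → ℝ) (hV : ∀ e, 0 ≤ V e) (e : E) :
    (if helper10_Q M S V e ∧ ¬ helper10_Good M S V e then V e else 0)
      ≤ ∑ g ∈ (NL M).erase e, (if helper10_Bad M S V e g then V e else 0) := by
  have hnn : ∀ g ∈ (NL M).erase e, 0 ≤ (if helper10_Bad M S V e g then V e else 0) := by
    intro g _
    split_ifs
    · exact hV e
    · exact le_refl 0
  by_cases hc : helper10_Q M S V e ∧ ¬ helper10_Good M S V e
  · rw [if_pos hc]
    obtain ⟨hQ, hG⟩ := hc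
    unfold helper10_Good at hG
    push Not at hG
    obtain ⟨g0, hg0, hg0e, hg0T⟩ := hG
    have hg0m : g0 ∈ (NL M).erase e := Finset.mem_erase.mpr ⟨hg0e, hg0⟩
    obtain ⟨g, hg, hmax⟩ := Finset.exists_max_image ((NL M).erase e) V ⟨g0, hg0m⟩
    have hbad : helper10_Bad M S V e g := by
      refine ⟨hQ, ?_, ?_⟩
      · exact lt_of_lt_of_le hg0T (hmax g0 hg0m)
      · intro x hx hxe
        exact hmax x (Finset.mem_erase.mpr ⟨hxe, hx⟩)
    calc V e = (if helper10_Bad M S V e g then V e else 0) := by rw [if_pos hbad]
      _ ≤ _ := Finset.single_le_sum hnn hg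
  · rw [if_neg hc]
    exact Finset.sum_nonneg hnn

theorem helper10_step4 (M : Matroid E) (S V : E → ℝ) (hS : ∀ e, 0 ≤ S e) {e g : E}
    (hg : g ∈ NL M) (hge : g ≠ e)
    (hbad : helper10_Bad M (Function.update S g (V g)) (Function.update V g (S g)) e g) :
    helper10_Q M S V e ∧ helper10_Good M S V e ∧ helper10_Ustr M S g := by
  obtain ⟨⟨hQ1, hQ2, hQ3⟩, hT, hmax⟩ := hbad
  have heg : e ≠ g := fun h => hge h.symm
  have hVe : Function.update V g (S g) e = V e := Function.update_of_ne heg _ _
  have hSe : Function.update S g (V g) e = S e := Function.update_of_ne heg _ _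
  have hVg : Function.update V g (S g) g = S g := Function.update_self _ _ _
  have hSg : Function.update S g (V g) g = V g := Function.update_self _ _ _
  rw [hVe] at hQ1 hQ2 hQ3
  rw [hSe] at hQ2
  rw [hVg] at hT hmax
  have a1 : V g < S g := by
    have h1 := helper10_le_topS M (Function.update S g (V g)) hg
    rw [hSg] at h1
    exact lt_of_le_of_lt h1 hT
  have hU : helper10_Ustr M S g := by
    intro f hf hfg
    have h1 := helper10_le_topS M (Function.update S g (V g)) hf
    rw [Function.update_of_ne hfg] at h1
    exact lt_of_le_of_lt h1 hT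
  have hTeq : topS M S = S g := by
    apply le_antisymm
    · apply helper10_topS_le M S (hS g)
      intro f hf
      by_cases hfg : f = g
      · rw [hfg]
      · exact le_of_lt (hU f hf hfg)
    · exact helper10_le_topS M S hg
  have hgV : S g < V e := by
    have h1 := hQ3 g hg hge
    rwa [hVg] at h1
  refine ⟨⟨?_, hQ2, ?_⟩, ?_, hU⟩
  · intro f hf hfe
    by_cases hfg : f = g
    · rw [hfg]
      exact le_of_lt hgV
    · have h1 := hQ1 f hf hfe
      rwa [Function.update_of_ne hfg] at h1
  · intro f hf hfe
    by_cases hfg : f = g
    · rw [hfg]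
      exact lt_trans a1 hgV
    · have h1 := hQ3 f hf hfe
      rwa [Function.update_of_ne hfg] at h1
  · intro x hx hxe
    rw [hTeq]
    by_cases hxg : x = g
    · rw [hxg]
      exact le_of_lt a1
    · have h1 := hmax x hx hxe
      rwa [Function.update_of_ne hxg] at h1

theorem helper10_step5 (M : Matroid E) (S V : E → ℝ) (hV : ∀ e, 0 ≤ V e) (e : E) :
    ∑ g ∈ (NL M).erase e,
        (if helper10_Q M S V e ∧ helper10_Good M S V e ∧ helper10_Ustr M S g then V e else 0)
      ≤ (if helper10_Q M S V e ∧ helper10_Good M S V e then V e else 0) := by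
  by_cases hQG : helper10_Q M S V e ∧ helper10_Good M S V e
  · rw [if_pos hQG]
    by_cases hex : ∃ g0 ∈ (NL M).erase e, helper10_Ustr M S g0
    · obtain ⟨g0, hg0, hU0⟩ := hex
      rw [Finset.sum_eq_single g0]
      · rw [if_pos ⟨hQG.1, hQG.2, hU0⟩]
      · intro g hg hgg0
        rw [if_neg]
        rintro ⟨_, _, hU⟩
        have h1 := hU g0 (Finset.mem_of_mem_erase hg0) (Ne.symm hgg0)
        have h2 := hU0 g (Finset.mem_of_mem_erase hg) hgg0
        exact lt_asymm h1 h2
      · intro hc
        exact absurd hg0 hc
    · push Not at hex
      have h0 : ∑ g ∈ (NL M).erase e,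
          (if helper10_Q M S V e ∧ helper10_Good M S V e ∧ helper10_Ustr M S g
            then V e else 0) = 0 := by
        apply Finset.sum_eq_zero
        intro g hg
        rw [if_neg]
        rintro ⟨_, _, hU⟩
        exact hex g hg hU
      rw [h0]
      exact hV e
  · rw [if_neg hQG]
    apply le_of_eq
    apply Finset.sum_eq_zero
    intro g _
    rw [if_neg]
    rintro ⟨h1, h2, _⟩
    exact hQG ⟨h1, h2⟩

theorem helper10_step6 (M : Matroid E) (S V : E → ℝ) (hV : ∀ e, 0 ≤ V e) :
    ∑ e ∈ NL M, (if helper10_Q M S V e ∧ helper10_Good M S V e then V e else 0)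
      ≤ E0 M S V + EA M S V := by
  have hE0 : 0 ≤ E0 M S V := by
    unfold E0
    split_ifs
    · exact helper10_topS_nonneg M S
    · exact le_refl 0
  have hEAterm : ∀ e ∈ NL M,
      0 ≤ (if topS M S < V e ∧ ∀ e' ∈ NL M, e' ≠ e → V e' ≤ topS M S then V e else 0) := by
    intro e _
    split_ifs
    · exact hV e
    · exact le_refl 0
  have hEA : 0 ≤ EA M S V := by
    unfold EA
    exact Finset.sum_nonneg hEAterm
  by_cases hex : ∃ e0 ∈ NL M, helper10_Q M S V e0 ∧ helper10_Good M S V e0
  · obtain ⟨e0, he0, hQ, hG⟩ := hex
    rw [Finset.sum_eq_single e0]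
    · rw [if_pos ⟨hQ, hG⟩]
      have hTle : topS M S ≤ V e0 := by
        apply helper10_topS_le M S (hV e0)
        intro f hf
        by_cases hfe : f = e0
        · rw [hfe]
          exact le_of_lt hQ.2.1
        · exact hQ.1 f hf hfe
      rcases eq_or_lt_of_le hTle with heq | hlt
      · have h1 : E0 M S V = V e0 := by
          unfold E0
          rw [if_pos ⟨e0, he0, hTle⟩, heq]
        linarith
      · have h1 : V e0 ≤ EA M S V := by
          unfold EA
          calc V e0 = (if topS M S < V e0 ∧ ∀ e' ∈ NL M, e' ≠ e0 → V e' ≤ topS M S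
                  then V e0 else 0) := by
                rw [if_pos ⟨hlt, hG⟩]
            _ ≤ _ := Finset.single_le_sum hEAterm he0
        linarith
    · intro e1 he1 he10
      rw [if_neg]
      rintro ⟨⟨_, _, hQ3'⟩, _⟩
      have h1 := hQ.2.2 e1 he1 he10
      have h2 := hQ3' e0 he0 (Ne.symm he10)
      exact lt_asymm h1 h2
    · intro hc
      exact absurd he0 hc
  · push Not at hex
    have h0 : ∑ e ∈ NL M,
        (if helper10_Q M S V e ∧ helper10_Good M S V e then V e else 0) = 0 := by
      apply Finset.sum_eq_zero
      intro e he
      rw [if_neg]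
      rintro ⟨h1, h2⟩
      exact hex e he h1 h2
    rw [h0]
    linarith

/-! ### Expectations -/

theorem helper10_exp_T_le (M : Matroid E) {Ω : Type} [Fintype Ω] (p val : E → Ω → ℝ)
    (hp : ∀ e ω, 0 ≤ p e ω) (hval : ∀ e ω, 0 ≤ val e ω) :
    ∑ s : E → Ω, ∑ v : E → Ω, wt p s * wt p v * topS M (vals val s)
      ≤ 3 * ∑ s : E → Ω, ∑ v : E → Ω, wt p s * wt p v * E0 M (vals val s) (vals val v)
        + 2 * ∑ s : E → Ω, ∑ v : E → Ω, wt p s * wt p v * EA M (vals val s) (vals val v) := by
  have hvn : ∀ (s : E → Ω) (e : E), 0 ≤ vals val s e := fun s e => hval e (s e)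
  -- the value of `e` on the event `Q`, split according to `Good`
  have hsplit : ∀ e : E,
      helper10_Ex p (fun s v =>
          if helper10_Q M (vals val s) (vals val v) e then vals val v e else 0)
        = helper10_Ex p (fun s v =>
            if helper10_Q M (vals val s) (vals val v) e ∧
              helper10_Good M (vals val s) (vals val v) e then vals val v e else 0)
          + helper10_Ex p (fun s v =>
            if helper10_Q M (vals val s) (vals val v) e ∧
              ¬ helper10_Good M (vals val s) (vals val v) e then vals val v e else 0) := by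
    intro e
    rw [← helper10_Ex_add]
    apply helper10_Ex_congr
    intro s v
    by_cases h1 : helper10_Q M (vals val s) (vals val v) e
    · by_cases h2 : helper10_Good M (vals val s) (vals val v) e
      · simp [h1, h2]
      · simp [h1, h2]
    · simp [h1]
  -- the bad part is dominated by the good part
  have hbad : ∀ e : E,
      helper10_Ex p (fun s v =>
          if helper10_Q M (vals val s) (vals val v) e ∧
            ¬ helper10_Good M (vals val s) (vals val v) e then vals val v e else 0)
        ≤ helper10_Ex p (fun s v =>
            if helper10_Q M (vals val s) (vals val v) e ∧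
              helper10_Good M (vals val s) (vals val v) e then vals val v e else 0) := by
    intro e
    calc helper10_Ex p (fun s v =>
          if helper10_Q M (vals val s) (vals val v) e ∧
            ¬ helper10_Good M (vals val s) (vals val v) e then vals val v e else 0)
        ≤ helper10_Ex p (fun s v => ∑ g ∈ (NL M).erase e,
            (if helper10_Bad M (vals val s) (vals val v) e g then vals val v e else 0)) :=
          helper10_Ex_mono p hp
            (fun s v => helper10_step3 M (vals val s) (vals val v) (hvn v) e)
      _ = ∑ g ∈ (NL M).erase e, helper10_Ex p (fun s v =>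
            (if helper10_Bad M (vals val s) (vals val v) e g then vals val v e else 0)) :=
          helper10_Ex_sum p ((NL M).erase e) (fun g s v =>
            (if helper10_Bad M (vals val s) (vals val v) e g then vals val v e else 0))
      _ ≤ ∑ g ∈ (NL M).erase e, helper10_Ex p (fun s v =>
            (if helper10_Q M (vals val s) (vals val v) e ∧
              helper10_Good M (vals val s) (vals val v) e ∧
              helper10_Ustr M (vals val s) g then vals val v e else 0)) := by
          apply Finset.sum_le_sum
          intro g hg
          have hgN : g ∈ NL M := Finset.mem_of_mem_erase hg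
          have hge : g ≠ e := Finset.ne_of_mem_erase hg
          rw [helper10_Ex_swap p _ g]
          apply helper10_Ex_mono p hp
          intro s v
          show (if helper10_Bad M (vals val (Function.update s g (v g)))
                (vals val (Function.update v g (s g))) e g
              then vals val (Function.update v g (s g)) e else 0)
            ≤ (if helper10_Q M (vals val s) (vals val v) e ∧
                helper10_Good M (vals val s) (vals val v) e ∧
                helper10_Ustr M (vals val s) g then vals val v e else 0)
          rw [helper10_vals_update, helper10_vals_update]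
          have hve : Function.update (vals val v) g (val g (s g)) e = vals val v e :=
            Function.update_of_ne (fun h => hge h.symm) _ _
          rw [hve]
          by_cases hb : helper10_Bad M (Function.update (vals val s) g (val g (v g)))
              (Function.update (vals val v) g (val g (s g))) e g
          · have h4 := helper10_step4 M (vals val s) (vals val v) (hvn s) hgN hge hb
            rw [if_pos hb, if_pos h4]
          · rw [if_neg hb]
            split_ifs
            · exact hvn v e
            · exact le_refl 0
      _ = helper10_Ex p (fun s v => ∑ g ∈ (NL M).erase e,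
            (if helper10_Q M (vals val s) (vals val v) e ∧
              helper10_Good M (vals val s) (vals val v) e ∧
              helper10_Ustr M (vals val s) g then vals val v e else 0)) :=
          (helper10_Ex_sum p ((NL M).erase e) (fun g s v =>
            (if helper10_Q M (vals val s) (vals val v) e ∧
              helper10_Good M (vals val s) (vals val v) e ∧
              helper10_Ustr M (vals val s) g then vals val v e else 0))).symm
      _ ≤ _ := helper10_Ex_mono p hp
            (fun s v => helper10_step5 M (vals val s) (vals val v) (hvn v) e)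
  -- first step: `T` against `E0` and the events `Q`
  have hA : helper10_Ex p (fun s _ => topS M (vals val s))
      ≤ helper10_Ex p (fun s v => E0 M (vals val s) (vals val v))
        + ∑ e ∈ NL M, helper10_Ex p (fun s v =>
            if helper10_Q M (vals val s) (vals val v) e then vals val v e else 0) := by
    calc helper10_Ex p (fun s _ => topS M (vals val s))
        ≤ helper10_Ex p (fun s v => E0 M (vals val s) (vals val v)
            + ∑ e ∈ NL M, helper10_h M (vals val s) (vals val v) e) :=
          helper10_Ex_mono p hp
            (fun s v => helper10_step1 M (vals val s) (vals val v) (hvn s))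
      _ = helper10_Ex p (fun s v => E0 M (vals val s) (vals val v))
            + helper10_Ex p (fun s v =>
                ∑ e ∈ NL M, helper10_h M (vals val s) (vals val v) e) :=
          helper10_Ex_add p (fun s v => E0 M (vals val s) (vals val v))
            (fun s v => ∑ e ∈ NL M, helper10_h M (vals val s) (vals val v) e)
      _ = helper10_Ex p (fun s v => E0 M (vals val s) (vals val v))
            + ∑ e ∈ NL M, helper10_Ex p (fun s v =>
                helper10_h M (vals val s) (vals val v) e) := by
          rw [helper10_Ex_sum p (NL M)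
            (fun e s v => helper10_h M (vals val s) (vals val v) e)]
      _ = _ := by
          congr 1
          apply Finset.sum_congr rfl
          intro e he
          rw [helper10_Ex_swap p _ e]
          apply helper10_Ex_congr
          intro s v
          show helper10_h M (vals val (Function.update s e (v e)))
              (vals val (Function.update v e (s e))) e
            = if helper10_Q M (vals val s) (vals val v) e then vals val v e else 0
          rw [helper10_vals_update, helper10_vals_update]
          exact helper10_step2 M (vals val s) (vals val v) he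
  -- the events `Q` and `Good` against `E0 + EA`
  have hC : ∑ e ∈ NL M, helper10_Ex p (fun s v =>
        if helper10_Q M (vals val s) (vals val v) e ∧
          helper10_Good M (vals val s) (vals val v) e then vals val v e else 0)
      ≤ helper10_Ex p (fun s v => E0 M (vals val s) (vals val v))
        + helper10_Ex p (fun s v => EA M (vals val s) (vals val v)) := by
    rw [← helper10_Ex_sum p (NL M) (fun e s v =>
        if helper10_Q M (vals val s) (vals val v) e ∧
          helper10_Good M (vals val s) (vals val v) e then vals val v e else 0),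
      ← helper10_Ex_add]
    exact helper10_Ex_mono p hp
      (fun s v => helper10_step6 M (vals val s) (vals val v) (hvn v))
  have hB : ∑ e ∈ NL M, helper10_Ex p (fun s v =>
        if helper10_Q M (vals val s) (vals val v) e then vals val v e else 0)
      ≤ 2 * ∑ e ∈ NL M, helper10_Ex p (fun s v =>
        if helper10_Q M (vals val s) (vals val v) e ∧
          helper10_Good M (vals val s) (vals val v) e then vals val v e else 0) := by
    rw [Finset.mul_sum]
    apply Finset.sum_le_sum
    intro e _
    rw [hsplit e]
    linarith [hbad e]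
  have hfin : helper10_Ex p (fun s _ => topS M (vals val s))
      ≤ 3 * helper10_Ex p (fun s v => E0 M (vals val s) (vals val v))
        + 2 * helper10_Ex p (fun s v => EA M (vals val s) (vals val v)) := by
    linarith
  exact hfin

end

end Vale.Agent.Lib.P331
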